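import Mathlib
import Vale.Agent.P125.Def
import Vale.Agent.P125.Core

/-!
# Nontrivial Markov type implies an equivalent uniformly smooth norm
-/

namespace Vale.Agent.Results.P125.MarkovTypeSmooth

open Vale.Agent.P125

/-- Every real normed space with Markov type `p` for some `p > 1` has an equivalent uniformly
smooth norm. -/
theorem result (X : Type*) [NormedAddCommGroup X] [NormedSpace ℝ X] (p : ℝ) (hp : 1 < p)
    (hX : HasMarkovType p X) : HasUniformlySmoothNorm X := by
  by_cases hT : ∀ ε : ℝ, 0 < ε → ∃ n : ℕ, 1 ≤ n ∧ treeSup n (0 : X) ≤ ε * n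
  · exact renorm hT
  · obtain ⟨θ, hθ, hlad⟩ := ladders hT
    exact (no_ladders hp hX hθ hlad).elim

end Vale.Agent.Results.P125.MarkovTypeSmooth
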